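import Vale.Agent.P021.Defs
import Vale.Agent.P021.C3.Cert3

namespace Vale.Agent.Results.P021.ExponentPi5999

open Vale.Agent.P021

/-- The irrationality exponent of `π` is at most `5.999`; in particular it is less than `6`. -/
theorem result : irrationalityExponent Real.pi ≤ ((5.999 : ℝ) : EReal) :=
  Det.result_c3

end Vale.Agent.Results.P021.ExponentPi5999
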