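import Vale.Agent.P021.Defs
import Vale.Agent.P021Q.Cert

namespace Vale.Agent.Results.P021.ExponentPi60072

open Vale.Agent.P021

/-- The irrationality exponent of `π` is at most `6.0072`. -/
theorem result : irrationalityExponent Real.pi ≤ ((6.0072 : ℝ) : EReal) :=
  Det.Q.bound

end Vale.Agent.Results.P021.ExponentPi60072
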